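import Mathlib
import Vale.Agent.P319.Ev.IA
import Vale.Agent.P319.SC.QL.QIface

/-! P319, block SC, package QL2-B: bounds for `Schi` with no zero / one zero in a disc of
radius `ρ ≤ 2 d`. -/

set_option linter.all false

namespace Vale.Agent.P319.SC.QL.H232

open Complex Metric Set DirichletCharacter ArithmeticFunction
open Vale.Agent.P319.Ev Vale.Agent.P319.Ev.IA

/-- zeros to the left of `Re = 1` at distance at least `ρ` from `1` are outside of the disc of
radius `√(d² + ρ²)` about `1 + d` -/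
theorem not_in_disc' {d ρ : ℝ} (h0 : 0 < d) (hρ : 0 < ρ) {z : ℂ} (hre : z.re < 1)
    (h1 : ρ ≤ ‖z - 1‖) (hz : z ∈ ball ((1 + d : ℝ) : ℂ) (Real.sqrt (d ^ 2 + ρ ^ 2))) : False := by
  have h2 : ‖z - ((1 + d : ℝ) : ℂ)‖ < Real.sqrt (d ^ 2 + ρ ^ 2) := by
    simpa [dist_eq_norm] using hz
  have h3 : ‖z - ((1 + d : ℝ) : ℂ)‖ ^ 2 = ‖z - 1‖ ^ 2 + d ^ 2 + 2 * d * (1 - z.re) := by
    rw [Complex.sq_norm, Complex.sq_norm, Complex.normSq_apply, Complex.normSq_apply]
    simp only [Complex.sub_re, Complex.sub_im, Complex.ofReal_re, Complex.ofReal_im, Complex.one_re,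
      Complex.one_im]
    ring
  have h4 : 0 ≤ ‖z - ((1 + d : ℝ) : ℂ)‖ := norm_nonneg _
  have h5 : ‖z - ((1 + d : ℝ) : ℂ)‖ ^ 2 < d ^ 2 + ρ ^ 2 := by
    have h6 : Real.sqrt (d ^ 2 + ρ ^ 2) ^ 2 = d ^ 2 + ρ ^ 2 := Real.sq_sqrt (by positivity)
    rw [← h6]
    gcongr
  nlinarith [mul_pos h0 (sub_pos.2 hre)]

theorem sqrt_le {d ρ t : ℝ} (h0 : 0 < d) (hρ : 0 < ρ) (h1 : ρ ≤ 2 * d) (ht : d ≤ 1 / 8) :
    Real.sqrt (d ^ 2 + ρ ^ 2) ≤ 1 / 2 := by
  rw [show (1 / 2 : ℝ) = Real.sqrt ((1 / 2) ^ 2) by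
    rw [Real.sqrt_sq (by norm_num)]]
  refine Real.sqrt_le_sqrt ?_
  nlinarith

/-- the bound with no zero in the disc of radius `ρ` -/
theorem bnd : BndStmt := by
  obtain ⟨C, hC2, h⟩ := L_ratio
  refine ⟨6 * C, by linarith, fun r _ χ hχ d ρ h0 h1 hρ0 hρ hz k => ?_⟩
  have hr1 : 1 ≤ r := Nat.one_le_iff_ne_zero.2 (NeZero.ne r)
  have hLL := one_le_LL hr1
  set R : ℝ := Real.sqrt (d ^ 2 + ρ ^ 2) with hR
  have hR0 : 0 < R := Real.sqrt_pos.2 (by positivity)
  have hR1 : R ≤ 1 / 2 := sqrt_le (t := 0) h0 hρ0 hρ h1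
  have hsub : ball ((1 + d : ℝ) : ℂ) R ⊆ closedBall ((1 + d : ℝ) : ℂ) (1 / 2) :=
    ball_subset_closedBall.trans (closedBall_subset_closedBall hR1)
  have h3 := coeff_bound (F := LFunction χ) (c := ((1 + d : ℝ) : ℂ)) (R := R) (M := C * LL r)
    (differentiable_LFunction hχ).differentiableOn hR0
    (fun z hzb hz0 => not_in_disc' h0 hρ0 (zero_re_lt hχ hz0)
      (not_lt.1 fun hlt => hz z hlt hz0) hzb) (by positivity)
    (fun z hzb => (h r χ hχ d h0 (by linarith) z (hsub hzb)).trans (by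
      have := norm_nonneg (LFunction χ ((1 + d : ℝ) : ℂ))
      gcongr
      linarith)) k
  rw [norm_Schi χ k h0, div_le_iff₀ (by exact_mod_cast k.factorial_pos)]
  refine h3.trans ?_
  rw [mul_comm]
  have h5 : (0 : ℝ) < k.factorial := by exact_mod_cast k.factorial_pos
  refine mul_le_mul_of_nonneg_right (le_of_eq ?_) h5.le
  ring

/-- the bound with one zero in the disc of radius `ρ` -/
theorem bndOne : BndOneStmt := by
  obtain ⟨C, hC2, h⟩ := L_ratio
  refine ⟨6 * C, by linarith, fun r _ χ hχ d ρ h0 h1 hρ0 hρ a ha hLa hz k => ?_⟩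
  have hr1 : 1 ≤ r := Nat.one_le_iff_ne_zero.2 (NeZero.ne r)
  have hLL := one_le_LL hr1
  set R : ℝ := Real.sqrt (d ^ 2 + ρ ^ 2) with hR
  have hR0 : 0 < R := Real.sqrt_pos.2 (by positivity)
  have hR1 : R ≤ 1 / 2 := sqrt_le (t := 0) h0 hρ0 hρ (by linarith)
  set c : ℂ := ((1 + d : ℝ) : ℂ) with hc
  have hsub : ball c R ⊆ closedBall c (1 / 2) :=
    ball_subset_closedBall.trans (closedBall_subset_closedBall hR1)
  have hLd := differentiable_LFunction hχ
  set g := dslope (LFunction χ) a with hg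
  have hgd : Differentiable ℂ g := by
    rw [← differentiableOn_univ, hg, Complex.differentiableOn_dslope Filter.univ_mem]
    exact hLd.differentiableOn
  have he : ∀ z, LFunction χ z = (z - a) * g z := by
    intro z
    have := sub_smul_dslope (LFunction χ) a z
    rw [hLa, sub_zero, smul_eq_mul] at this
    exact this.symm
  have hgn : ∀ z ∈ ball c R, g z ≠ 0 := fun z hzb hz0 =>
    not_in_disc' h0 hρ0 (zero_re_lt hχ (by rw [he z, hz0, mul_zero]))
      (not_lt.1 fun hlt => hz z hlt hz0) hzb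
  have hca : ‖c - a‖ ≤ 1 / 4 := by
    have : c - a = (d : ℂ) - (a - 1) := by rw [hc]; push_cast; ring
    rw [this]
    refine (norm_sub_le _ _).trans ?_
    rw [Complex.norm_real, Real.norm_eq_abs, abs_of_pos h0]
    linarith
  have hca0 : c - a ≠ 0 := by
    intro h
    have h3 := zero_re_lt hχ hLa
    rw [← sub_eq_zero.1 h, hc, Complex.ofReal_re] at h3
    linarith
  have hcc : ‖LFunction χ c‖ ≤ ‖g c‖ := by
    rw [he c, norm_mul]
    have := norm_nonneg (g c)
    nlinarith
  have hgB : ∀ z ∈ closedBall c (1 / 2), ‖g z‖ ≤ Real.exp (C * LL r) * ‖g c‖ := by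
    intro z hz
    have hcl : closure (ball c (1 / 2 : ℝ)) = closedBall c (1 / 2) := closure_ball c (by norm_num)
    refine Complex.norm_le_of_forall_mem_frontier_norm_le (U := ball c (1 / 2)) isBounded_ball
      hgd.diffContOnCl ?_ (by rw [hcl]; exact hz)
    intro w hw
    rw [frontier_ball c (by norm_num)] at hw
    have hwc : ‖w - c‖ = 1 / 2 := by simpa [dist_eq_norm] using hw
    have h3 := h r χ hχ d h0 (by linarith) w (sphere_subset_closedBall hw)
    have h4 : 1 / 4 ≤ ‖w - a‖ := by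
      have h5 : ‖w - c‖ ≤ ‖w - a‖ + ‖c - a‖ := by
        have : w - c = (w - a) - (c - a) := by ring
        rw [this]
        exact norm_sub_le _ _
      linarith
    rw [he w, norm_mul] at h3
    have h5 := norm_nonneg (g w)
    have h6 : Real.exp (C * LL r) * (‖LFunction χ c‖ / 4) ≤
        Real.exp (C * LL r) * (‖g c‖ / 4) := by gcongr
    nlinarith
  have h3 := coeff_bound (F := g) (c := c) (R := R) (M := C * LL r)
    hgd.differentiableOn hR0 hgn (by positivity)
    (fun z hzb => hgB z (hsub hzb)) k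
  have hcb : c ∈ ball c R := mem_ball_self hR0
  have hsplit : iteratedDeriv k (fun z => deriv (LFunction χ) z / LFunction χ z) c =
      iteratedDeriv k (fun z : ℂ => (z - a)⁻¹) c + iteratedDeriv k (fun z => deriv g z / g z) c := by
    rw [← iteratedDeriv_fun_add]
    · refine Filter.EventuallyEq.iteratedDeriv_eq k ?_
      have hne : {z : ℂ | z - a ≠ 0} ∈ nhds c :=
        (isOpen_ne_fun (by fun_prop) continuous_const).mem_nhds hca0
      filter_upwards [isOpen_ball.mem_nhds hcb, hne] with z hz hza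
      have hgz := hgn z hz
      have hderiv : deriv (LFunction χ) z = g z + (z - a) * deriv g z := by
        have h5 : HasDerivAt (fun z => (z - a) * g z) (1 * g z + (z - a) * deriv g z) z :=
          ((hasDerivAt_id z).sub_const a).mul (hgd z).hasDerivAt
        have h6 : LFunction χ = fun z => (z - a) * g z := funext he
        rw [h6, h5.deriv, one_mul]
      rw [hderiv, he z]
      have hza' : z - a ≠ 0 := hza
      field_simp
    · have : AnalyticAt ℂ (fun z : ℂ => (z - a)⁻¹) c :=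
        (analyticAt_id.sub analyticAt_const).inv hca0
      exact this.contDiffAt
    · have h5 : AnalyticAt ℂ g c := hgd.analyticAt c
      exact (h5.deriv.div h5 (hgn c hcb)).contDiffAt
  rw [norm_Schi χ k h0, ← hc, hsplit, div_le_iff₀ (by exact_mod_cast k.factorial_pos)]
  refine (norm_add_le _ _).trans ?_
  rw [norm_iter_inv]
  have h5 : (0 : ℝ) < k.factorial := by exact_mod_cast k.factorial_pos
  rw [add_mul]
  refine add_le_add (le_of_eq (by field_simp)) ?_
  refine h3.trans ?_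
  rw [mul_comm]
  refine mul_le_mul_of_nonneg_right (le_of_eq ?_) h5.le
  ring

end Vale.Agent.P319.SC.QL.H232
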